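import Vale.Agent.P011N.Cl.MD.Cub
import Vale.Agent.P011N.Cl.TC.GR

/-!
The descent of a datum which is standard over a normal subgroup.
-/

namespace Vale.Agent.P011N.Cl.SET

open Vale.Agent.P011.MPQ Vale.Agent.P011.D4 Vale.Agent.P011.D4.Oct Vale.Agent.P011.E6 Equiv Module
open Vale.Agent.P011.E6.Alb Vale.Agent.P011N.Cl.EI Vale.Agent.P011N.Cl.MD

section dsc

variable {E F : Type} [Field E] [Field F] [CharZero E] [CharZero F] {ι : E →+* F}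
  {Γ Δ : Subgroup (Gl F)} {Φ : Subgroup (Perm (W1 F))} {γ : Gl F} {φ : Perm (W1 F)}

theorem jW_mem (h : Dat6 Γ Φ) (hφ : φ ∈ Φ) (hs : Semi γ φ) {l : F}
    (h1 : ∀ x, φ (x, 0) = (l • jA γ x, 0)) : jW γ ∈ Φ := by
  obtain ⟨ε, _, _, m, h2⟩ := h.sim_of hφ hs
  obtain rfl := h2.inner_iff.1 fun x => by rw [h1]
  have h3 := ne_of_inl hs (Or.inl h1)
  have h4 := div_ne_zero h2.ne.2.2 h3
  have h5 := ((sim6_one.2 (sim6_scal (z := zs6 l (m / l) h3 h4) fun _ => rfl)).comp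
    (sim6_jW γ)).cast (ε' := false) (l' := m) (one_mul γ) rfl rfl rfl
      (by simp [mul_div_cancel₀ _ h3])
  have h6 : φ = zs6 l (m / l) h3 h4 * jW γ := h2.ext_fst h5 fun x => by
    rw [h1, Perm.mul_apply, jW_apply, jA_zero]
    exact Prod.ext rfl (smul_zero _).symm
  exact (Φ.mul_mem_cancel_left (h.sat (zs6_mem _ _ h3 h4))).1 (h6 ▸ hφ)

theorem std_jW (h : Std6 Γ Δ Φ) (hγ : γ ∈ Δ) : jW γ ∈ Φ := by
  obtain ⟨φ, h1, h2⟩ := h.dat.ov.onto γ (h.le hγ)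
  obtain ⟨l, h3⟩ := h.std φ h1 γ hγ h2
  exact jW_mem h.dat h1 h2 h3

theorem jW_j6 (hD : Dsc ι Γ Δ 1 1 1 1 1 1) (hγ : γ ∈ Δ) (x : W1 E) : jW γ (j6 ι x) = j6 ι x :=
  Prod.ext (hD.jA_fix hγ _) (hD.jA_fix hγ _)

theorem exists_j6 (hD : Dsc ι Γ Δ 1 1 1 1 1 1) {v : W1 F} (h : ∀ δ ∈ Δ, jW δ v = v) :
    ∃ x : W1 E, j6 ι x = v := by
  obtain ⟨x, hx⟩ := hD.range fun δ hδ => congrArg Prod.fst (h δ hδ)
  obtain ⟨y, hy⟩ := hD.range fun δ hδ => congrArg Prod.snd (h δ hδ)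
  exact ⟨(x, y), Prod.ext hx hy⟩

theorem exists_scal (hD : Dsc ι Γ Δ 1 1 1 1 1 1) {κ : Type} (y : κ → J1 F)
    (h : ∀ δ ∈ Δ, ∃ s : F, ∀ i, jA δ (y i) = s • y i) :
    ∃ t : F, t ≠ 0 ∧ ∀ δ ∈ Δ, ∀ i, jA δ (t • y i) = t • y i := by
  by_cases h0 : ∀ i, y i = 0
  · exact ⟨1, one_ne_zero, fun δ _ i => by rw [h0, smul_zero, jA_zero]⟩
  obtain ⟨i, hi⟩ := not_forall.1 h0
  obtain ⟨x, hx⟩ : ∃ x : J1 E, tf (y i) (jA ι x) ≠ 0 := by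
    by_contra hcon
    push Not at hcon
    exact hi (eq_of_tf fun w => (bc_jA ι (A := 1) (B := 1) (C := 1)).ext (γ' := 1)
      (semi_lin (tfL 1 1 1 (y i))) (semi_lin (tfL 1 1 1 (0 : J1 F)))
      (fun x => (hcon x).trans (by simp)) w)
  refine ⟨_, inv_ne_zero hx, fun δ hδ k => ?_⟩
  obtain ⟨s, hs⟩ := h δ hδ
  have h1 := tf_jA (par_one (ι := δ)) (y i) (jA ι x)
  rw [hD.jA_fix hδ, hs, tf_smul_left] at h1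
  have h2 : s ≠ 0 := fun h2 => hx (by simpa [h2] using h1.symm)
  rw [jA_smul, hs, map_inv₀, ← h1, smul_smul, mul_inv, mul_right_comm, inv_mul_cancel₀ h2, one_mul]

/-- The descents of the elements of `Φ`. -/
def Dw (ι : E →+* F) (Φ : Subgroup (Perm (W1 F))) : Subgroup (Perm (W1 E)) where
  carrier := {f | ∃ φ ∈ Φ, ∀ x, φ (j6 ι x) = j6 ι (f x)}
  mul_mem' := by
    rintro f f' ⟨g, h1, h2⟩ ⟨g', k1, k2⟩
    exact ⟨g * g', Φ.mul_mem h1 k1, fun x => by rw [Perm.mul_apply, k2, h2, Perm.mul_apply]⟩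
  one_mem' := ⟨1, Φ.one_mem, fun _ => rfl⟩
  inv_mem' := by
    rintro f ⟨g, h1, h2⟩
    exact ⟨g⁻¹, Φ.inv_mem h1, fun x => by rw [Perm.inv_eq_iff_eq, h2]; simp⟩

theorem exists_dw (h : Std6 Γ Δ Φ) (hD : Dsc ι Γ Δ 1 1 1 1 1 1) (hφ : φ ∈ Φ) :
    ∃ z ∈ Z6 (1 : Fˣ) 1 1, ∃ f : Perm (W1 E), ∀ x, (z * φ) (j6 ι x) = j6 ι (f x) := by
  obtain ⟨γ, h1, ε, _, _, _, h2⟩ := h.dat.sim φ hφ
  have h3 : ∀ δ ∈ Δ, γ⁻¹ * (δ * γ) ∈ Δ := fun δ hδ => by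
    simpa [mul_assoc] using h.nm γ⁻¹ (Γ.inv_mem h1) δ hδ
  have h4 : ∀ δ ∈ Δ, ∃ s t : F, ∀ x : W1 E,
      jW δ (φ (j6 ι x)) = (s • (φ (j6 ι x)).1, t • (φ (j6 ι x)).2) := fun δ hδ => by
    obtain ⟨z, k1, k2⟩ := h.dat.exists_Z6 (std_jW h (h3 δ hδ))
      (Φ.mul_mem (Φ.inv_mem hφ) (Φ.mul_mem (std_jW h hδ) hφ)) (sim6_jW _).semi
      (h2.semi.inv.mul ((sim6_jW δ).semi.mul h2.semi))
    obtain ⟨s, t, k3⟩ := mem_Z6.1 k1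
    refine ⟨_, _, fun x => Eq.trans ?_ (h2.scal s t (j6 ι x))⟩
    rw [← k3, ← jW_j6 hD (h3 δ hδ) x, ← Perm.mul_apply z, ← k2, jW_j6 hD (h3 δ hδ)]
    simp
  obtain ⟨s, s0, hs⟩ := exists_scal hD (fun x : W1 E => (φ (j6 ι x)).1) fun δ hδ =>
    (h4 δ hδ).imp fun _ ⟨_, k⟩ x => congrArg Prod.fst (k x)
  obtain ⟨t, t0, ht⟩ := exists_scal hD (fun x : W1 E => (φ (j6 ι x)).2) fun δ hδ => by
    obtain ⟨_, t, k⟩ := h4 δ hδ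
    exact ⟨t, fun x => congrArg Prod.snd (k x)⟩
  refine ⟨_, zs6_mem s t s0 t0, ?_⟩
  have h5 : Semi γ ⇑(zs6 s t s0 t0 * φ : Perm (W1 F)) :=
    (semi_Z6 (zs6_mem s t s0 t0)).lin_comp h2.semi
  have h6 : ∀ δ ∈ Δ, ∀ x : W1 E, jW δ ((zs6 s t s0 t0 * φ : Perm (W1 F)) (j6 ι x)) =
      (zs6 s t s0 t0 * φ : Perm (W1 F)) (j6 ι x) := fun δ hδ x => Prod.ext (hs δ hδ x) (ht δ hδ x)
  generalize zs6 s t s0 t0 * φ = ψ at h5 h6 ⊢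
  choose f hf using fun x : W1 E => exists_j6 hD fun δ hδ => h6 δ hδ x
  choose g hg using fun x : W1 E => exists_j6 hD (v := ψ⁻¹ (j6 ι x)) fun δ hδ => by
    have k1 := h.nm γ h1 δ hδ
    have k2 := (bc_j6 ι).ext (h5.mul (sim6_jW δ).semi) (show Semi (⇑(γ * δ))
      ⇑(jW (γ * δ * γ⁻¹) * ψ) by simpa using (sim6_jW (γ * δ * γ⁻¹)).semi.mul h5)
      (fun x => by rw [Perm.mul_apply, Perm.mul_apply, jW_j6 hD hδ, h6 _ k1]) (ψ⁻¹ (j6 ι x))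
    exact Perm.eq_inv_iff_eq.2 (by simpa [jW_j6 hD k1] using k2)
  have hi := (bc_j6 ι (A := 1) (B := 1) (C := 1) (A' := 1) (B' := 1) (C' := 1)).inj
  exact ⟨⟨f, g, fun x => hi (by simp [hg, hf]), fun x => hi (by simp [hg, hf])⟩,
    fun x => (hf x).symm⟩

variable {Γ₀ : Subgroup (Gl E)} {γ₀ : Gl E} {f : Perm (W1 E)}

theorem semi_down (hs : Semi γ φ) (hγ : ∀ x, γ (ι x) = ι (γ₀ x))
    (h : ∀ x, φ (j6 ι x) = j6 ι (f x)) : Semi γ₀ f := fun t x y =>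
  (bc_j6 ι (A' := 1) (B' := 1) (C' := 1)).inj (by
    rw [← h, (bc_j6 ι).add, (bc_j6 ι).add, (bc_j6 ι).smul, (bc_j6 ι).smul, hs, h, h, hγ])

omit [CharZero F] in
theorem scal_down {x y : J1 E} {l : F} (hx : x ≠ 0) (h : l • (jA ι x : J1 F) = jA ι y) :
    l ∈ Set.range ι := by
  obtain ⟨w, hw⟩ : ∃ w, tf x w ≠ 0 := by
    by_contra hcon
    push Not at hcon
    exact hx (eq_of_tf fun w => by simp [hcon])
  have h1 := congrArg (fun v => tf v (jA ι w)) h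
  simp only [tf_smul_left, tf_jA (par_one (ι := ι))] at h1
  exact ⟨tf y w / tf x w, by rw [map_div₀, ← h1, mul_div_cancel_right₀ _ ((map_ne_zero ι).2 hw)]⟩

theorem dat_dw (h : Std6 Γ Δ Φ) (hD : Dsc ι Γ Δ 1 1 1 1 1 1) (hE : Ext ι Γ₀ Γ) :
    Dat6 Γ₀ (Dw ι Φ) := by
  have h1 : ∀ f ∈ Dw ι Φ, ∃ γ ∈ Γ₀, ∃ ε ν₁ ν₂ l, Sim6 γ ε ν₁ ν₂ l f := by
    rintro f ⟨φ, k1, k2⟩
    obtain ⟨γ, k3, ε, ν₁, ν₂, l, k4⟩ := h.dat.sim φ k1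
    obtain ⟨γ₀, k5, k6⟩ := hE.down γ k3
    have k7 := k4.c1 (j6 ι ((⟨1, 1, 1, 0, 0, 0⟩, ⟨1, 1, 1, 0, 0, 0⟩) : W1 E))
    have k8 := k4.c2 (j6 ι ((⟨1, 1, 1, 0, 0, 0⟩, ⟨1, 1, 1, 0, 0, 0⟩) : W1 E))
    have k9 := k4.tf (j6 ι ((e1, e1) : W1 E))
    rw [k2] at k7 k8 k9
    simp only [j6, ite_self, cub_jA (par_one (ι := ι)), tf_jA (par_one (ι := ι)), cub_diag_one,
      map_one, mul_one, show tf (e1 : J1 E) e1 = 1 from tf_e1 _] at k7 k8 k9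
    rw [← k7, ← k8, ← k9] at k4
    exact ⟨γ₀, k5, ε, _, _, _, k4.down par_one par_one (semi_down k4.semi k6 k2) k6 k2⟩
  refine ⟨⟨fun f hf => (h1 f hf).imp fun _ ⟨k1, _, _, _, _, k2⟩ => ⟨k1, k2.semi⟩,
    fun γ₀ k1 => ?_⟩, h1, ?_, fun z hz => ?_⟩
  · obtain ⟨γ, k2, k3⟩ := hE.up γ₀ k1
    obtain ⟨φ, k4, k5⟩ := h.dat.ov.onto γ k2
    obtain ⟨z, k6, f, k7⟩ := exists_dw h hD k4
    exact ⟨f, ⟨_, Φ.mul_mem (h.dat.sat k6) k4, k7⟩,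
      semi_down (φ := z * φ) ((semi_Z6 k6).lin_comp k5) k3 k7⟩
  · rintro f ⟨φ, k1, k2⟩ k3
    obtain ⟨γ, -, k4⟩ := h.dat.ov.semi φ k1
    have k5 := hD.mem γ ((bc_j6 ι).over (bc_j6 ι) (semi_one.2 k3) k4 k2)
    obtain ⟨z, k6, rfl⟩ := h.dat.exists_Z6 (std_jW h k5) k1 (sim6_jW γ).semi k4
    obtain ⟨s, t, k7⟩ := mem_Z6.1 k6
    simp only [Perm.mul_apply, jW_j6 hD k5, k7] at k2
    obtain ⟨x, hx⟩ := exists_ne (0 : J1 E)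
    obtain ⟨s, rfl⟩ := scal_down hx (congrArg Prod.fst (k2 (x, x)))
    obtain ⟨t, rfl⟩ := scal_down hx (congrArg Prod.snd (k2 (x, x)))
    exact mem_Z6.2 ⟨s, t, fun x => (bc_j6 ι).inj ((k2 x).symm.trans
      (Prod.ext (jA_smul ι _ _).symm (jA_smul ι _ _).symm))⟩
  · obtain ⟨s, t, k1⟩ := mem_Z6.1 hz
    obtain ⟨k2, k3⟩ := ne_of_scal6 k1
    exact ⟨_, h.dat.sat (zs6_mem _ _ ((map_ne_zero ι).2 k2) ((map_ne_zero ι).2 k3)), fun x => by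
      rw [k1]
      exact Prod.ext (jA_smul ι _ _).symm (jA_smul ι _ _).symm⟩

theorem lifts_dw (h : Std6 Γ Δ Φ) (hD : Dsc ι Γ Δ 1 1 1 1 1 1) :
    Lifts ι (j6 ι) Γ (Dw ι Φ) (Z6 1 1 1) Φ where
  down φ hφ := by
    obtain ⟨z, k1, f, k2⟩ := exists_dw h hD hφ
    exact ⟨h.dat.ov.semi φ hφ, f, ⟨_, Φ.mul_mem (h.dat.sat k1) hφ, k2⟩, z⁻¹,
      (Z6 1 1 1).inv_mem k1, fun x => by simp [← k2]⟩
  up := by
    rintro f ⟨φ, k1, k2⟩ γ₀ k3 γ' - k4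
    obtain ⟨γ, -, k5⟩ := h.dat.ov.semi φ k1
    have k6 := hD.mem (γ⁻¹ * γ') fun x => by
      rw [over_mul (over_inv ((bc_j6 ι).over (bc_j6 ι) k3 k5 k2)) k4, inv_mul_cancel]
      rfl
    exact ⟨φ * jW _, Φ.mul_mem k1 (std_jW h k6), by simpa using k5.mul (sim6_jW (γ⁻¹ * γ')).semi,
      1, one_mem _, fun x => by rw [Perm.mul_apply, jW_j6 hD k6, k2, Perm.one_apply]⟩

end dsc

/-- **The descent** to the field fixed by the normal subgroup. -/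
theorem exists_desc {F : Type} [Field F] [NumberField F] {Γ Δ : Subgroup (Gl F)}
    {Φ : Subgroup (Perm (W1 F))} (h : Std6 Γ Δ Φ) :
    ∃ (E : Type) (_ : Field E) (_ : NumberField E) (ι : E →+* F) (Γ₀ : Subgroup (Gl E))
      (Φ₀ : Subgroup (Perm (W1 E))), Ext ι Γ₀ Γ ∧ Dsc ι Γ Δ 1 1 1 1 1 1 ∧ Dat6 Γ₀ Φ₀ ∧
      Lifts ι (j6 ι) Γ Φ₀ (Z6 1 1 1) Φ := by
  obtain ⟨E, _, _, ι, Γ₀, h1, h2, h3⟩ := ext_fixed h.le fun γ hγ δ hδ => by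
    simpa using h.nm γ⁻¹ (Γ.inv_mem hγ) δ hδ
  have hD : Dsc ι Γ Δ 1 1 1 1 1 1 :=
    ⟨h2, h3, par_one, fun γ hγ => (h1.down γ hγ).imp fun _ h => h.2⟩
  exact ⟨E, inferInstance, inferInstance, ι, Γ₀, _, h1, hD, dat_dw h hD h1, lifts_dw h hD⟩

end Vale.Agent.P011N.Cl.SET
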