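import Vale.Agent.P011N.Cl.SET.Spl

/-!
The fields of the standard setting, and the descent to the field which they generate.
-/

namespace Vale.Agent.P011N.Cl.SET

open Vale.Agent.P011.MPQ Vale.Agent.P011.D4 Vale.Agent.P011.D4.Oct Vale.Agent.P011.E6 Equiv Matrix
open Vale.Agent.P011.E6.Alb Vale.Agent.P011N.Cl.EI Vale.Agent.P011N.Cl.MD Vale.Agent.P011.E6O

section fld

variable {E F : Type} [Field E] [Field F] [CharZero E] [CharZero F]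

/-- The elements `d`, `q`, `v` generate an extension with the group generated by `r`, `σ`, `θ`. -/
structure Fld (Γ : Subgroup (Gl F)) (r σ θ : Gl F) (d q v : F) : Prop where
  mr : r ∈ Γ
  mσ : σ ∈ Γ
  mθ : θ ∈ Γ
  q0 : q ≠ 0
  sd : ∀ γ ∈ Γ, γ d = d ∨ γ d = -d
  sq : ∀ γ ∈ Γ, γ q = q ∨ γ q = -q
  rd : r d = d
  σd : σ d = d
  θd : θ d = -d
  rq : r q = q
  σq : σ q = -q
  θq : θ q = q
  σv : σ v = v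
  θv : θ v = v
  neg : ∃ a : ℚ, a < 0 ∧ d ^ 2 = a
  orb : ∀ γ ∈ Γ, γ v = v ∨ γ v = sh v ∨ γ v = sh (sh v)
  cyc : (r v = v ∧ ∀ γ ∈ Γ, γ v = v) ∨ r v = sh v

variable {Γ Δ : Subgroup (Gl F)} {r σ θ γ : Gl F} {d q v e : F} {u : M3 F}

theorem Fld.pow (h : Fld Γ r σ θ d q v) (hγ : γ ∈ Γ) : ∃ i : ℕ, γ v = (r ^ i) v := by
  rcases h.cyc with h1 | h1
  · exact ⟨0, h1.2 γ hγ⟩
  · rcases h.orb γ hγ with h2 | h2 | h2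
    exacts [⟨0, h2⟩, ⟨1, h2.trans h1.symm⟩,
      ⟨2, by rw [h2, pow_two, AlgEquiv.mul_apply, h1, map_sh, h1]⟩]

theorem Fld.fix (h : Fld Γ r σ θ d q v) (hγ : γ ∈ Γ) {δ : Gl F} (hδ : δ v = v) :
    δ (γ v) = γ v := by
  rcases h.orb γ hγ with h1 | h1 | h1 <;> simp only [h1, map_sh, hδ]

theorem pow_fix {x : F} (h : r x = x) (i : ℕ) : (r ^ i) x = x :=
  (MulAction.stabilizer (Gl F) x).pow_mem h i

theorem Fld.nm (h : Fld Γ r σ θ d q v) :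
    ∀ γ ∈ Γ, ∀ δ ∈ stb (stb (stb Γ q) d) v, γ * δ * γ⁻¹ ∈ stb (stb (stb Γ q) d) v := by
  rintro γ hγ δ ⟨⟨⟨h1, h2 : δ q = q⟩, h3 : δ d = d⟩, h4 : δ v = v⟩
  have h5 : ∀ x, δ (γ⁻¹ x) = γ⁻¹ x → (γ * δ * γ⁻¹) x = x := fun x hx =>
    (congrArg γ hx).trans (γ.apply_symm_apply x)
  refine ⟨⟨⟨Γ.mul_mem (Γ.mul_mem hγ h1) (Γ.inv_mem hγ), h5 q ?_⟩, h5 d ?_⟩,
    h5 v (h.fix (Γ.inv_mem hγ) h4)⟩
  · rcases h.sq _ (Γ.inv_mem hγ) with k | k <;> simp only [k, map_neg, h2]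
  · rcases h.sd _ (Γ.inv_mem hγ) with k | k <;> simp only [k, map_neg, h3]

theorem Fld.ext (h1 : ∀ γ ∈ Γ, γ q = q → γ d = d → γ v = v → γ = 1) (hγ : γ ∈ Γ) {δ : Gl F}
    (hδ : δ ∈ Γ) (h2 : γ q = δ q) (h3 : γ d = δ d) (h4 : γ v = δ v) : γ = δ := by
  have h5 : ∀ x, γ x = δ x → (δ⁻¹ * γ) x = x := fun x hx =>
    (congrArg δ.symm hx).trans (δ.symm_apply_apply x)
  exact (inv_mul_eq_one.1 (h1 _ (Γ.mul_mem (Γ.inv_mem hδ) hγ) (h5 q h2) (h5 d h3) (h5 v h4))).symm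

theorem Fld.oset (h : Fld Γ r σ θ d q v) (h1 : ∀ γ ∈ Γ, γ q = q → γ d = d → γ v = v → γ = 1)
    (he : θ e = e) (hc : (r = 1 ∧ u = 1) ∨
      (r ≠ 1 ∧ r ^ 3 = 1 ∧ r e = e ∧ (∀ x, x * r x * r (r x) ≠ e) ∧ u = uu e)) :
    OSet Γ r σ θ d q e u := by
  obtain ⟨a, h2, h3⟩ := h.neg
  have h4 := h.fix h.mr h.σv
  have h5 := h.fix h.mr h.θv
  have hm := fun i j l : ℕ => Γ.mul_mem (Γ.mul_mem (Γ.pow_mem h.mr i) (Γ.pow_mem h.mσ j))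
    (Γ.pow_mem h.mθ l)
  refine ⟨fun γ => ⟨fun hγ => ?_, fun ⟨i, j, l, k⟩ => k ▸ hm i j l⟩,
    h1 _ (Γ.mul_mem h.mσ h.mσ) ?_ ?_ ?_, h1 _ (Γ.mul_mem h.mθ h.mθ) ?_ ?_ ?_,
    Fld.ext h1 (Γ.mul_mem h.mr h.mσ) (Γ.mul_mem h.mσ h.mr) ?_ ?_ ?_,
    Fld.ext h1 (Γ.mul_mem h.mr h.mθ) (Γ.mul_mem h.mθ h.mr) ?_ ?_ ?_,
    Fld.ext h1 (Γ.mul_mem h.mσ h.mθ) (Γ.mul_mem h.mθ h.mσ) ?_ ?_ ?_, fun h0 => ?_, h.q0, h.rd,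
    h.σd, h.θd, h.rq, h.σq, h.θq, fun w _ => ?_, he, hc⟩
  · obtain ⟨i, hi⟩ := h.pow hγ
    rcases h.sq γ hγ with k | k <;> rcases h.sd γ hγ with k' | k'
    on_goal 1 => refine ⟨i, 0, 0, Fld.ext h1 hγ (hm _ _ _) ?_ ?_ ?_⟩
    on_goal 4 => refine ⟨i, 0, 1, Fld.ext h1 hγ (hm _ _ _) ?_ ?_ ?_⟩
    on_goal 7 => refine ⟨i, 1, 0, Fld.ext h1 hγ (hm _ _ _) ?_ ?_ ?_⟩
    on_goal 10 => refine ⟨i, 1, 1, Fld.ext h1 hγ (hm _ _ _) ?_ ?_ ?_⟩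
    all_goals simp only [pow_zero, pow_one, mul_one, AlgEquiv.mul_apply, map_neg, k, k', hi, h.σd,
      h.θd, h.σq, h.θq, h.σv, h.θv, pow_fix h.rq, pow_fix h.rd]
  on_goal 16 =>
    rw [h0, zero_pow two_ne_zero, eq_comm, Rat.cast_eq_zero] at h3
    exact h2.ne h3
  on_goal 16 =>
    rw [h3, map_ratCast, Complex.ratCast_re]
    exact_mod_cast h2
  all_goals simp only [AlgEquiv.mul_apply, map_neg, neg_neg, h.σd, h.θd, h.σq, h.θq, h.σv, h.θv,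
    h.rd, h.rq, h4, h5]

variable {ι : E →+* F} {Γ₀ : Subgroup (Gl E)} {r₀ σ₀ θ₀ γ₀ : Gl E} {d₀ q₀ v₀ : E}

theorem over_iff (hγ : ∀ x, γ (ι x) = ι (γ₀ x)) {x y : E} : γ (ι x) = ι y ↔ γ₀ x = y := by
  rw [hγ, ι.injective.eq_iff]

omit [CharZero E] [CharZero F] in
theorem sh_map (x : E) : sh (ι x) = ι (sh x) := by simp [sh]

theorem Fld.down (h : Fld Γ r σ θ (ι d₀) (ι q₀) (ι v₀)) (hE : Ext ι Γ₀ Γ) (h1 : r₀ ∈ Γ₀)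
    (h2 : σ₀ ∈ Γ₀) (h3 : θ₀ ∈ Γ₀) (hr : ∀ x, r (ι x) = ι (r₀ x)) (hσ : ∀ x, σ (ι x) = ι (σ₀ x))
    (hθ : ∀ x, θ (ι x) = ι (θ₀ x)) : Fld Γ₀ r₀ σ₀ θ₀ d₀ q₀ v₀ where
  mr := h1
  mσ := h2
  mθ := h3
  q0 := (map_ne_zero ι).1 h.q0
  sd γ₀ k := by
    obtain ⟨γ, k1, k2⟩ := hE.up γ₀ k
    simpa only [← map_neg, over_iff k2] using h.sd γ k1
  sq γ₀ k := by
    obtain ⟨γ, k1, k2⟩ := hE.up γ₀ k
    simpa only [← map_neg, over_iff k2] using h.sq γ k1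
  rd := over_fix hr h.rd
  σd := over_fix hσ h.σd
  θd := (over_iff hθ).1 (h.θd.trans (map_neg ι _).symm)
  rq := over_fix hr h.rq
  σq := (over_iff hσ).1 (h.σq.trans (map_neg ι _).symm)
  θq := over_fix hθ h.θq
  σv := over_fix hσ h.σv
  θv := over_fix hθ h.θv
  neg := h.neg.imp fun a k => ⟨k.1, ι.injective (by rw [map_pow, k.2, map_ratCast])⟩
  orb γ₀ k := by
    obtain ⟨γ, k1, k2⟩ := hE.up γ₀ k
    simpa only [sh_map, over_iff k2] using h.orb γ k1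
  cyc := h.cyc.imp (fun k => ⟨over_fix hr k.1, fun γ₀ k0 => by
    obtain ⟨γ, k1, k2⟩ := hE.up γ₀ k0
    exact over_fix k2 (k.2 γ k1)⟩) fun k => (over_iff hr).1 (k.trans (sh_map _))

variable {Φ : Subgroup (Perm (W1 F))} {Φ₀ : Subgroup (Perm (W1 E))}

theorem Base.down (h : Base Γ (ι q₀) Φ) (h₀ : Dat6 Γ₀ Φ₀) (hE : Ext ι Γ₀ Γ)
    (hL : Lifts ι (j6 ι) Γ Φ₀ (Z6 1 1 1) Φ) : Base Γ₀ q₀ Φ₀ := ⟨h₀, fun f hf γ₀ hs => by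
  obtain ⟨γ, k1, k2⟩ := hE.up γ₀ (h₀.ov.mem hf hs)
  obtain ⟨φ, k3, k4, z, k5, k6⟩ := hL.up f hf γ₀ hs γ k1 k2
  rw [← lift_inner h₀ h.dat par_one hf k3 k5 k6, h.inn φ k3 γ k4, over_iff k2]⟩

theorem ph_down (h₀ : Dat6 Γ₀ Φ₀) (hL : Lifts ι (j6 ι) Γ Φ₀ (Z6 1 1 1) Φ) (h1 : r₀ ∈ Γ₀)
    (h2 : r ∈ Γ) (hr : ∀ x, r (ι x) = ι (r₀ x)) {e : E} (he : e ≠ 0)
    (h : ∀ φ ∈ Φ, Semi r φ → ∃ l : F, ∀ x, φ (x, 0) = (l • ph6 r (ι e) x, 0)) :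
    ∃ p ∈ Φ₀, Semi r₀ p ∧ ∀ x, p (x, 0) = (ph6 r₀ e x, 0) := by
  obtain ⟨f, k1, k2⟩ := h₀.ov.onto r₀ h1
  obtain ⟨φ, k3, k4, z, k5, k6⟩ := hL.up f k1 r₀ k2 r h2 hr
  obtain ⟨l, k7⟩ := h φ k3 k4
  obtain ⟨s, t, k8⟩ := mem_Z6.1 k5
  obtain ⟨s0, t0⟩ := ne_of_scal6 k8
  have hi := (bc_jA ι (A := 1) (B := 1) (C := 1) (A' := 1) (B' := 1) (C' := 1)).inj
  have k9 : ∀ x : J1 E, (s⁻¹ * l) • (jA ι (ph6 r₀ e x) : J1 F) = jA ι (f (x, 0)).1 ∧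
      (f (x, 0)).2 = 0 := fun x => by
    have m1 := k6 (x, 0)
    rw [k8, j6, jA_zero, k7, ph6_over hr, Prod.mk.injEq] at m1
    exact ⟨by rw [mul_smul, m1.1, inv_smul_smul₀ s0]; rfl,
      hi (((smul_eq_zero_iff_right t0).1 m1.2.symm).trans (jA_zero ι).symm)⟩
  obtain ⟨c, hc⟩ := scal_down (fun h0 => he (by simpa [ph6, e1] using congrArg Alb.d2 h0))
    (k9 e1).1
  have k10 : ∀ x, f (x, 0) = (c • ph6 r₀ e x, 0) := fun x =>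
    Prod.ext (hi (by rw [← (k9 x).1, jA_smul, hc])) (k9 x).2
  have k11 := ne_of_inl k2 (Or.inl k10)
  have k12 := zs6_mem (A := 1) (B := 1) (C := 1) _ _ (inv_ne_zero k11) one_ne_zero
  exact ⟨_ * f, Φ₀.mul_mem (h₀.sat k12) k1, (semi_Z6 k12).lin_comp k2, fun x => by
    rw [Perm.mul_apply, k10]
    exact Prod.ext (inv_smul_smul₀ k11 _) (smul_zero _)⟩

end fld

/-- The conclusion. -/
def Out {F : Type} [Field F] (Φ : Subgroup (Perm (W1 F))) : Prop :=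
  ∃ (F' : Type) (_ : Field F') (_ : NumberField F') (Γ' : Subgroup (Gl F')) (r σ θ : Gl F')
    (d q e : F') (u : M3 F') (Φ' : Subgroup (Perm (W1 F'))), OSet Γ' r σ θ d q e u ∧
    Cfg Γ' r q u Φ' ∧ GrOn Φ' (fun γ => γ d = d ∧ γ q = q) false ∧
    UIso (Pts (S6 1 1 1) Φ) (Pts (S6 1 1 1) Φ')

theorem Out.of {F F' : Type} [Field F] [Field F'] {Φ : Subgroup (Perm (W1 F))}
    {Φ' : Subgroup (Perm (W1 F'))} (h : Out Φ') (h' : UIso (Pts (S6 1 1 1) Φ) (Pts (S6 1 1 1) Φ')) :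
    Out Φ := by
  obtain ⟨E, _, _, Γ, r, σ, θ, d, q, e, u, Ψ, h1, h2, h3, h4⟩ := h
  exact ⟨E, inferInstance, inferInstance, Γ, r, σ, θ, d, q, e, u, Ψ, h1, h2, h3, h'.trans h4⟩

variable {F : Type} [Field F] [NumberField F] {Γ : Subgroup (Gl F)} {r σ θ : Gl F} {d q v e : F}
  {u : M3 F} {Φ : Subgroup (Perm (W1 F))}

theorem Fld.not_rl (h : Fld Γ r σ θ d q v) {Δ : Subgroup (Gl F)} (hd : Fx Δ d) (w : F →+* ℂ) :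
    ¬ RlG Δ w := fun hw => by
  obtain ⟨a, h1, h2⟩ := h.neg
  have h3 := congrArg (fun x => (w x).re) h2
  simp only [map_mul, map_ratCast, pow_two, Complex.mul_re, hw d hd, Complex.ratCast_re] at h3
  have h4 : (a : ℝ) < 0 := by exact_mod_cast h1
  nlinarith [mul_self_nonneg (w d).re]

theorem out_of (h : Fld Γ r σ θ d q v) (hB : Base Γ q Φ)
    (h1 : ∀ γ ∈ Γ, γ q = q → γ d = d → γ v = v → γ = 1) (he : θ e = e) (hc : (r = 1 ∧ u = 1) ∨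
      (r ≠ 1 ∧ r ^ 3 = 1 ∧ r e = e ∧ (∀ x, x * r x * r (r x) ≠ e) ∧ u = uu e))
    {p : Perm (W1 F)} (h2 : p ∈ Φ) (h3 : Semi r p) (h4 : Cm false p)
    (h5 : ∀ β, p (pP β, 0) = (pP (u *ᵥ fun i => r (β i)), 0)) : Out Φ := by
  refine ⟨F, inferInstance, inferInstance, Γ, r, σ, θ, d, q, e, u, Φ, h.oset h1 he hc,
    ⟨hB.dat, hB.inn, p, h2, h3, h5⟩, fun φ k1 γ k2 k3 => ?_, UIso.refl _⟩
  have k4 := hB.dat.ov.mem k1 k2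
  obtain ⟨i, k5⟩ := h.pow k4
  obtain rfl := Fld.ext h1 k4 (Γ.pow_mem h.mr i) (k3.2.trans (pow_fix h.rq i).symm)
    (k3.1.trans (pow_fix h.rd i).symm) k5
  obtain ⟨z, k6, rfl⟩ := hB.dat.exists_Z6 (Φ.pow_mem h2 i) k1 (semi_pow h3 i) k2
  exact (cm_Z6 k6).mul (h4.pow h3 i) (semi_one.2 (semi_Z6 k6))

/-- **The descent** to the field generated by `d`, `q`, `v`. -/
theorem out_desc (h : Fld Γ r σ θ d q v) (hB : Base Γ q Φ)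
    (h1 : ∀ φ ∈ Φ, ∀ γ ∈ stb (stb (stb Γ q) d) v, Semi γ φ →
      ∃ l : F, ∀ x, φ (x, 0) = (l • jA γ x, 0))
    (h2 : r = 1 ∨ (Cyc Γ r v ∧ ∃ e, Fx (stb Γ q) e ∧
      (∀ x, Fx (stb (stb (stb Γ q) d) v) x → x * r x * r (r x) ≠ e) ∧
      ∀ φ ∈ Φ, Semi r φ → ∃ l : F, ∀ x, φ (x, 0) = (l • ph6 r e x, 0))) : Out Φ := by
  obtain ⟨E, _, _, ι, Γ₀, Φ₀, hE, hD, h₀, hL⟩ := exists_desc ⟨hB.dat, ⟨fx_one, fx_one, fx_one⟩,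
    stb_le.trans (stb_le.trans stb_le), h.nm, h1⟩
  obtain ⟨q, rfl⟩ := (hD.rng q).2 fun _ k => k.1.1.2
  obtain ⟨d, rfl⟩ := (hD.rng d).2 fun _ k => k.1.2
  obtain ⟨v, rfl⟩ := (hD.rng v).2 fun _ k => k.2
  obtain ⟨r₀, k1, k2⟩ := hE.down r h.mr
  obtain ⟨σ₀, k3, k4⟩ := hE.down σ h.mσ
  obtain ⟨θ₀, k5, k6⟩ := hE.down θ h.mθ
  have k7 := h.down hE k1 k3 k5 k2 k4 k6
  have k8 : ∀ γ ∈ Γ₀, γ q = q → γ d = d → γ v = v → γ = 1 := fun γ₀ m1 m2 m3 m4 => by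
    obtain ⟨γ, m5, m6⟩ := hE.up γ₀ m1
    exact (hD.eq_one m6).2 ⟨⟨⟨m5, (over_iff m6).2 m2⟩, (over_iff m6).2 m3⟩, (over_iff m6).2 m4⟩
  refine Out.of ?_ (hL.uiso6 hE par_one h₀.ov).symm
  rcases h2 with rfl | ⟨hC, e, m1, m2, m3⟩
  · obtain rfl := (hD.eq_one k2).2 (one_mem _)
    exact out_of k7 (hB.down h₀ hE hL) k8 (map_one θ₀) (Or.inl ⟨rfl, rfl⟩) Φ₀.one_mem semi_id
      cm_one fun β => by simp
  · obtain ⟨e, rfl⟩ := (hD.rng e).2 (m1.mono (stb_le.trans stb_le))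
    have m4 : ∀ x, x * r₀ x * r₀ (r₀ x) ≠ e := fun x m4 => m2 (ι x) (fun _ k => hD.fix k x)
      (by rw [k2, k2, ← map_mul, ← map_mul, m4])
    obtain ⟨p, m5, m6, m7⟩ := ph_down h₀ hL k1 h.mr k2 (fun k => m4 0 (by simp [k])) m3
    obtain ⟨_, _, _, _, m8⟩ := h₀.sim_of m5 m6
    exact out_of k7 (hB.down h₀ hE hL) k8 (over_fix k6 (m1 θ ⟨h.mθ, h.θq⟩)) (Or.inr
      ⟨fun k => hC.ne ((hD.eq_one k2).1 k).2, (hD.eq_one (over_pow k2 3)).2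
        ⟨⟨⟨Γ.pow_mem h.mr 3, pow_fix h.rq 3⟩, pow_fix h.rd 3⟩, hC.cube.2⟩,
        over_fix k2 (m1 r ⟨h.mr, h.rq⟩), m4, rfl⟩) m5 m6 (cm_ph m8 m7) fun β => by
      rw [m7, ph6_pP]

end Vale.Agent.P011N.Cl.SET
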