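import Vale.Agent.P011N.Cl.SET.Fin
import Vale.Agent.P011N.Cl.K.Fin

/-!
The reduction to the standard setting.
-/

namespace Vale.Agent.P011N.Cl.SET

open Vale.Agent.P011.MPQ Vale.Agent.P011.D4 Vale.Agent.P011.D4.Oct Vale.Agent.P011.E6 Equiv Matrix
open Vale.Agent.P011.E6.Alb Vale.Agent.P011N.Cl.EI Vale.Agent.P011N.Cl.MD Vale.Agent.P011.E6O

variable {F : Type} [Field F] [NumberField F] {Γ : Subgroup (Gl F)} {r σ θ : Gl F} {d q v e : F}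
  {Φ : Subgroup (Perm (W1 F))}

theorem exists_q (h : Dat6 Γ Φ) :
    ∃ q : F, q ≠ 0 ∧ (∀ γ ∈ Γ, γ q = q ∨ γ q = -q) ∧ Base Γ q Φ := by
  choose! φ h1 h2 using h.ov.onto
  choose! ε ν₁ ν₂ l h3 using fun γ (hγ : γ ∈ Γ) => h.sim_of (h1 γ hγ) (h2 γ hγ)
  have h4 : ∀ ψ ∈ Φ, ∀ (γ : Gl F) ε' ν₁ ν₂ l, Sim6 γ ε' ν₁ ν₂ l ψ → ε γ = ε' := by
    intro ψ k1 γ ε' _ _ _ k2
    have k3 := h.ov.mem k1 k2.semi
    obtain ⟨z, k4, rfl⟩ := h.exists_Z6 (h1 γ k3) k1 (h2 γ k3) k2.semi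
    obtain ⟨_, _, _, k5⟩ := sim6_Z6 k4
    simpa using Sim6.eps_eq (φ := z * φ γ) ((sim6_one.2 k5).comp (h3 γ k3)) k2
  obtain ⟨q, q0, hq⟩ := h90 (Γ := Γ) (fun γ => if ε γ then -1 else 1)
    (by rw [h4 1 Φ.one_mem 1 _ _ _ _ (sim6_one.2 sim6_id)]; rfl) fun γ k1 δ k2 => by
      rw [h4 _ (Φ.mul_mem (h1 γ k1) (h1 δ k2)) _ _ _ _ _ ((h3 γ k1).comp (h3 δ k2))]
      cases ε γ <;> cases ε δ <;> simp
  refine ⟨q, q0, fun γ k1 => ?_, h, fun ψ k1 γ k2 => ?_⟩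
  · have k2 := hq γ k1
    split_ifs at k2
    exacts [Or.inr (by linear_combination -k2), Or.inl (by linear_combination k2)]
  · obtain ⟨ε', _, _, _, k3⟩ := h.sim_of k1 k2
    have k4 := hq γ (h.ov.mem k1 k2)
    rw [h4 ψ k1 γ _ _ _ _ k3] at k4
    rw [k3.inner_iff]
    cases ε'
    · simpa using k4
    · exact iff_of_false (by simp) fun k5 => q0 (by
        rw [k5, if_pos rfl] at k4
        linear_combination (-1 / 2 : F) * k4)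

section up

variable {F' : Type} [Field F'] [NumberField F'] {ι : F →+* F'} {Γ' : Subgroup (Gl F')}
  {Φ' : Subgroup (Perm (W1 F'))}

theorem Base.up (h : Base Γ q Φ) (h' : Dat6 Γ' Φ') (hL : Lifts ι (j6 ι) Γ' Φ (Z6 1 1 1) Φ') :
    Base Γ' (ι q) Φ' := ⟨h', fun φ' k1 γ' k2 => by
  obtain ⟨-, φ, k3, z, k4, k5⟩ := hL.down φ' k1
  obtain ⟨γ, -, k6⟩ := h.dat.ov.semi φ k3
  have k7 := (bc_j6 ι).over (bc_j6 ι) (φ' := ⇑(z⁻¹ * φ')) k6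
    ((semi_Z6 ((Z6 1 1 1).inv_mem k4)).lin_comp k2) fun x => by simp [k5]
  rw [lift_inner h.dat h' par_one k3 k1 k4 k5, h.inn φ k3 γ k6, over_iff k7]⟩

theorem sgn_up (hE : Ext ι Γ Γ') (h : ∀ γ ∈ Γ, γ q = q ∨ γ q = -q) :
    ∀ γ ∈ Γ', γ (ι q) = ι q ∨ γ (ι q) = -ι q := fun γ' k => by
  obtain ⟨γ, k1, k2⟩ := hE.down γ' k
  simpa only [← map_neg, over_iff k2] using h γ k1

end up

theorem exists_fld (h : Dat6 Γ Φ) (ho : ∃ φ ∈ Φ, ∃ x, (φ (x, 0)).2 ≠ 0) :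
    ∃ (F' : Type) (_ : Field F') (_ : NumberField F') (Γ' : Subgroup (Gl F')) (σ θ : Gl F')
      (d q : F') (Φ' : Subgroup (Perm (W1 F'))), Fld Γ' 1 σ θ d q 0 ∧ Base Γ' q Φ' ∧
      UIso (Pts (S6 1 1 1) Φ) (Pts (S6 1 1 1) Φ') := by
  obtain ⟨q, q0, hq, hB⟩ := exists_q h
  obtain ⟨φ, h1, x, h2⟩ := ho
  obtain ⟨σ₀, h3, h4⟩ := h.ov.semi φ h1
  have h5 := (hq σ₀ h3).resolve_left fun k => h2 ((hB.inn φ h1 σ₀ h4).2 k x)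
  obtain ⟨a, a1, a2, -⟩ := K.exists_a (k := ℚ) (L := ℚ) (by simp) Set.finite_empty F
  obtain ⟨F', _, _, ι, Γ', d, hE, hd⟩ := exists_sqrt Γ (algebraMap ℚ F a)
  obtain ⟨Φ', h', hL, -⟩ := h.exists_lift hE (par_one (ι := ι))
  obtain ⟨θ, θ1, θ2, θ3⟩ := hE.exists_neg a2 hd
  have hd' : d ^ 2 = a := by simpa using hd
  have h6 : ∀ γ : Gl F', γ d = d ∨ γ d = -d := fun γ =>
    sq_eq_sq_iff_eq_or_eq_neg.1 (by rw [← map_pow, hd', map_ratCast])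
  obtain ⟨σ, σ1, σ2, σ3⟩ : ∃ σ ∈ Γ', σ (ι q) = -ι q ∧ σ d = d := by
    obtain ⟨σ, k1, k2⟩ := hE.up σ₀ h3
    rcases h6 σ with k3 | k3
    · exact ⟨σ, k1, by rw [k2, h5, map_neg], k3⟩
    · exact ⟨σ * θ, Γ'.mul_mem k1 θ1, by rw [AlgEquiv.mul_apply, θ2, k2, h5, map_neg],
        by rw [AlgEquiv.mul_apply, θ3, map_neg, k3, neg_neg]⟩
  exact ⟨F', inferInstance, inferInstance, Γ', σ, θ, d, ι q, Φ', ⟨Γ'.one_mem, σ1, θ1,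
    (map_ne_zero ι).2 q0, fun γ _ => h6 γ, sgn_up hE hq, rfl, σ3, θ3, rfl, σ2, θ2 q, map_zero σ,
    map_zero θ, ⟨a, by simpa using a1 (Rat.castHom ℝ), hd'⟩, fun γ _ => Or.inl (map_zero γ),
    Or.inl ⟨rfl, fun γ _ => map_zero γ⟩⟩, hB.up h' hL, hL.uiso6 hE par_one h.ov⟩

theorem exists_cub (h : Fld Γ 1 σ θ d q 0) (hB : Base Γ q Φ) :
    ∃ (F' : Type) (_ : Field F') (_ : NumberField F') (Γ' : Subgroup (Gl F')) (r σ θ : Gl F')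
      (d q v : F') (Φ' : Subgroup (Perm (W1 F'))) (y : J1 F'), Fld Γ' r σ θ d q v ∧ Cyc Γ' r v ∧
      Base Γ' q Φ' ∧ UIso (Pts (S6 1 1 1) Φ) (Pts (S6 1 1 1) Φ') ∧ y ≠ 0 ∧
      ∀ φ ∈ Φ', ∀ γ ∈ stb (stb Γ' q) v, Semi γ φ → ∃ c : F', φ (y, 0) = c • (y, 0) := by
  obtain ⟨F', _, _, ι, Γ', Φ', r, v, y, hE, h', hL, hr, hC, y0, hy⟩ := exists_cyc K.k3
    (stb_le (d := q)) (Nat.le_of_dvd two_pos (Subgroup.relIndex_dvd_two_iff.2 ⟨σ, h.mσ,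
      fun γ k => (h.sq γ k).symm.imp (fun k1 => mem_stb.2 ⟨Γ.mul_mem k h.mσ, by
        rw [AlgEquiv.mul_apply, h.σq, map_neg, k1, neg_neg]⟩) fun k1 => ⟨k, k1⟩⟩)) hB.dat
    fun φ k1 γ k2 k3 => (hB.inn φ k1 γ k3).2 k2.2
  have h1 : ∀ γ ∈ Γ, ∃ γ' ∈ Γ', (∀ x, γ' (ι x) = ι (γ x)) ∧ γ' v = v := fun γ k => by
    obtain ⟨γ', k1, k2⟩ := hE.up γ k
    rcases hC.cos γ' k1 with k3 | k3 | k3
    · exact ⟨_, k3.1, k2, k3.2⟩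
    · exact ⟨_, k3.1, fun x => by simpa using over_mul (over_inv (γ := 1) hr) k2 x, k3.2⟩
    · exact ⟨_, k3.1, fun x => by simpa using over_mul (γ := 1) hr k2 x, k3.2⟩
  obtain ⟨σ', σ1, σ2, σ3⟩ := h1 σ h.mσ
  obtain ⟨θ', θ1, θ2, θ3⟩ := h1 θ h.mθ
  refine ⟨F', inferInstance, inferInstance, Γ', r, σ', θ', ι d, ι q, v, Φ', y, ⟨hC.mem, σ1, θ1,
    (map_ne_zero ι).2 h.q0, sgn_up hE h.sd, sgn_up hE h.sq, hr d, by rw [σ2, h.σd],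
    by rw [θ2, h.θd, map_neg], hr q, by rw [σ2, h.σq, map_neg], by rw [θ2, h.θq], σ3, θ3,
    h.neg.imp fun a k => ⟨k.1, by rw [← map_pow, k.2, map_ratCast]⟩, hC.orb, Or.inr hC.map⟩, hC,
    hB.up h' hL, hL.uiso6 hE par_one hB.dat.ov, y0,
    fun φ k1 γ' k2 => hy φ k1 γ' ⟨⟨k2.1.1, ?_⟩, k2.2⟩⟩
  obtain ⟨γ, k3, k4⟩ := hE.down γ' k2.1.1
  exact ⟨γ, ⟨k3, over_fix k4 k2.1.2⟩, k4⟩

theorem Fld.zero (h : Fld Γ r σ θ d q v) : Fld Γ 1 σ θ d q 0 :=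
  ⟨Γ.one_mem, h.mσ, h.mθ, h.q0, h.sd, h.sq, rfl, h.σd, h.θd, rfl, h.σq, h.θq, map_zero σ,
    map_zero θ, h.neg, fun γ _ => Or.inl (map_zero γ), Or.inl ⟨rfl, fun γ _ => map_zero γ⟩⟩

/-- If `e` is a norm, there is a stable line. -/
theorem exists_line (h : Fld Γ r σ θ d q v) (hB : Base Γ q Φ)
    (h1 : ∀ φ ∈ Φ, ∀ γ ∈ stb (stb (stb Γ q) d) v, Semi γ φ →
      ∃ l : F, ∀ x, φ (x, 0) = (l • jA γ x, 0)) (he : e ≠ 0) (h2 : Fx (stb Γ q) e)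
    (h3 : ∀ φ ∈ Φ, Semi r φ → ∃ l : F, ∀ x, φ (x, 0) = (l • ph6 r e x, 0)) {c : F}
    (h4 : Fx (stb (stb (stb Γ q) d) v) c) (h5 : c * r c * r (r c) = e) :
    ∃ y : J1 F, y ≠ 0 ∧ ∀ φ ∈ Φ, ∀ γ ∈ stb (stb Γ q) d, Semi γ φ →
      ∃ t : F, φ (y, 0) = t • (y, 0) := by
  have c0 : r c ≠ 0 := fun k => he (by simp [← h5, k])
  have c1 := (map_ne_zero r).1 c0
  have c2 := (map_ne_zero r).2 c0
  refine ⟨⟨1, e / c, e ^ 2 / (c * r c), 0, 0, 0⟩, fun k => one_ne_zero (congrArg Alb.d1 k),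
    fun φ k1 γ k2 k3 => ?_⟩
  generalize hy : (⟨1, e / c, e ^ 2 / (c * r c), 0, 0, 0⟩ : J1 F) = y
  obtain ⟨p, p1, p2⟩ := hB.dat.ov.onto r h.mr
  obtain ⟨l, p3⟩ := h3 p p1 p2
  have p4 : ph6 r e y = c • y := by
    subst hy
    ext1 <;> simp [ph6, jO_zero, h2 r ⟨h.mr, h.rq⟩]
    · field_simp
      linear_combination -h5
    all_goals field_simp
  have p5 : ∀ i : ℕ, ∃ t : F, (p ^ i) (y, 0) = t • (y, 0) := fun i => by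
    induction i with
    | zero => exact ⟨1, by simp⟩
    | succ i ih =>
      obtain ⟨t, ht⟩ := ih
      exact ⟨_, by rw [pow_succ', Perm.mul_apply, ht, p2.smul, p3, p4, smul_smul l, smul_inl,
        smul_smul]⟩
  obtain ⟨i, k4⟩ := h.pow k2.1.1
  have k5 : ∀ x, γ x = (r ^ i) x → ((r ^ i)⁻¹ * γ) x = x := fun x hx =>
    (congrArg (r ^ i).symm hx).trans ((r ^ i).symm_apply_apply x)
  have k6 : (r ^ i)⁻¹ * γ ∈ stb (stb (stb Γ q) d) v :=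
    ⟨⟨⟨Γ.mul_mem (Γ.inv_mem (Γ.pow_mem h.mr i)) k2.1.1, k5 q (k2.1.2.trans (pow_fix h.rq i).symm)⟩,
      k5 d (k2.2.trans (pow_fix h.rd i).symm)⟩, k5 v k4⟩
  obtain ⟨s, k7⟩ := h1 _ (Φ.mul_mem (Φ.inv_mem (Φ.pow_mem p1 i)) k1) _ k6
    ((semi_pow p2 i).inv.mul k3)
  generalize (r ^ i)⁻¹ * γ = δ at k6 k7
  have k8 : δ (r c) = r c := by
    simpa using congrArg r (h4 _ (h.nm r⁻¹ (Γ.inv_mem h.mr) δ k6))
  have k9 : jA δ y = y := by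
    subst hy
    simp [jA, jO_zero, h2 δ k6.1.1, h4 δ k6, k8]
  obtain ⟨t, ht⟩ := p5 i
  exact ⟨_, by rw [← mul_inv_cancel_left (p ^ i) φ, Perm.mul_apply, k7, k9, smul_inl,
    (semi_pow p2 i).smul, ht, smul_smul]⟩

/-- **(SET)** -/
theorem setStmt (hEI : EIStmt) : SetStmt := by
  intro F _ _ Γ Φ h ho
  obtain ⟨F, _, _, Γ, σ, θ, d, q, Φ, h1, h2, h3⟩ := exists_fld h ho
  obtain ⟨F, _, _, Γ, r, σ, θ, d, q, v, Φ, y, h4, hC, h5, h6, y0, hy⟩ := exists_cub h1 h2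
  have hC' := hC.mono (stb_le (d := q)) ⟨h4.mr, h4.rq⟩
  have hw := h4.not_rl (Δ := stb (stb Γ q) d) fun _ k => k.2
  obtain ⟨Φ, h7, h8, h9, h10⟩ := exists_ei hEI h5 le_rfl stb_le y0 hy
    (mem_stb.2 ⟨hC'.mem, h4.rd⟩) (hC'.nm r hC'.mem) hC'.cube hC'.cos stb_le hw
  obtain ⟨e, e0, e1, e2⟩ := h10 hC'.not_mem
  refine Out.of ?_ (h3.trans (h6.trans h8))
  have h11 := fun φ k1 γ (k2 : γ ∈ stb (stb (stb Γ q) d) v) => h9 φ k1 γ ⟨k2.1.1, k2.2⟩ k2.1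
  by_cases hn : ∀ x, Fx (stb (stb (stb Γ q) d) v) x → x * r x * r (r x) ≠ e
  · exact out_desc h4 h7 h11 (Or.inr ⟨hC, e, e1, hn, e2⟩)
  push Not at hn
  obtain ⟨c, c1, c2⟩ := hn
  obtain ⟨y, y0, hy⟩ := exists_line h4 h7 h11 e0 e1 e2 c1 c2
  obtain ⟨Φ, k1, k2, k3, -⟩ := exists_ei hEI h7 stb_le le_rfl y0 hy (one_mem _)
    (fun γ k => by simpa using k) (by simp) (fun γ k => Or.inl k) le_rfl hw
  exact (out_desc h4.zero k1 (fun φ m1 γ m2 => k3 φ m1 γ m2.1 m2.1) (Or.inl rfl)).of k2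

end Vale.Agent.P011N.Cl.SET
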