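import Vale.Agent.P011N.Cl.SET.Dsc
import Vale.Agent.P011.E6.Coord

/-!
The inner forms over a totally imaginary field, in the coordinates of the first Tits construction.
-/

namespace Vale.Agent.P011N.Cl.SET

open Vale.Agent.P011.MPQ Vale.Agent.P011.D4 Vale.Agent.P011.D4.Oct Vale.Agent.P011.E6 Equiv Matrix
open Vale.Agent.P011.E6.Alb Vale.Agent.P011N.Cl.EI Vale.Agent.P011N.Cl.MD Vale.Agent.P011.E6O

section ph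

variable {F : Type} [Field F] [CharZero F] {γ : Gl F} {e : F}

theorem ph6_mkT (γ : Gl F) (e : F) (X Y Z : M3 F) : ph6 γ e (mkT X Y Z) =
    mkT (X.map γ * (uu e)ᵀ) !![e⁻¹ * γ (Y 2 2), γ (Y 2 0), γ (Y 2 1);
      γ (Y 0 2), e * γ (Y 0 0), e * γ (Y 0 1); γ (Y 1 2), e * γ (Y 1 0), e * γ (Y 1 1)]
      (uu e * Z.map γ) := by
  simp [ph6, jO, jQ, mkT, mkq, uu, map_div₀, map_ofNat, Matrix.mul_apply, Fin.sum_univ_three,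
    Oct.ext_iff, QuaternionAlgebra.ext_iff]
  refine ⟨⟨?_, ?_, ?_, ?_⟩, ?_, ?_, ?_, ?_⟩ <;> ring

theorem ph6_pP (γ : Gl F) (e : F) (β : Fin 3 → F) :
    ph6 γ e (pP β) = pP (uu e *ᵥ fun i => γ (β i)) := by
  rw [pP, pP, ph6_mkT, mkT_inj]
  refine ⟨?_, ?_, by simp⟩ <;> ext i j <;> fin_cases i <;> fin_cases j <;>
    simp [uu, Matrix.mul_apply, Fin.sum_univ_three, vecMulVec_apply, mul_comm, vecHead, vecTail]

theorem ph6_sl1 (γ : Gl F) (e : F) (x : J1 F) :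
    ph6 γ e (sl1 (hh F) x) = sl1 (hh F) (ph6 γ e x) := by
  obtain ⟨X, Y, Z, rfl⟩ := exists_mkT x
  rw [sl1_mkT, ph6_mkT, ph6_mkT, sl1_mkT, mkT_inj, Matrix.map_mul, hh_map,
    Matrix.map_neg _ (map_neg γ), Matrix.map_mul, hh_map]
  refine ⟨Matrix.mul_assoc _ _ _, ?_, by rw [Matrix.mul_neg, Matrix.mul_assoc]⟩
  ext i j
  fin_cases i <;> fin_cases j <;> simp

theorem cm_ph {φ : Perm (W1 F)} {ε ν₁ ν₂ l} (h : Sim6 γ ε ν₁ ν₂ l φ)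
    (h1 : ∀ x, φ (x, 0) = (ph6 γ e x, 0)) : Cm false φ := by
  obtain rfl := h.inner_iff.1 fun x => by rw [h1]
  have h2 : ∀ x, fs6 φ false (sl1 (hh F) x) = sl1 (hh F) (fs6 φ false x) := fun x => by
    simp only [fs6, Bool.false_eq_true, if_false, h1, ph6_sl1]
  exact cm_false.2 fun ⟨x, y⟩ => by
    rw [slA_eq, h.apply_false, h.apply_false, slA_eq, h2, h.pr.sl1_dual h2]

end ph

section spl

variable {F : Type} [Field F] [NumberField F] {A B C α β κ : Fˣ} {Γ : Subgroup (Gl F)}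
  {a : Gl F → Oct A B C → Oct A B C} {i j l : Oct A B C}

omit [NumberField F] in
theorem triple_swap (h : Triple i j l α β κ) : Triple i l j α κ β where
  i_one := h.i_one
  j_one := h.perp.1
  i_j := (bil_comm _ _).trans h.perp.2.1
  norm_i := h.norm_i
  norm_j := h.norm_l
  perp := ⟨h.j_one, (bil_comm _ _).trans h.i_j, (bil_comm _ _).trans h.perp.2.2.1, by
    rw [bil_mul_right, h.toBasic.star_i, neg_mul, bil_neg_left, bil_comm, h.perp.2.2.2, neg_zero]⟩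
  norm_l := h.norm_j

theorem exists_one (ha : OAct Γ a) (h : Triple i j l 1 β κ) (hi : Fix Γ a i) (hl : Fix Γ a l) :
    ∃ l', Fix Γ a l' ∧ Triple i j l' 1 β 1 := by
  have h1 : Fx Γ (κ : F) := by simpa [h.norm_l] using (ha.fx_norm hl).neg
  refine ⟨qemb i j (⟨((κ : F)⁻¹ + 1) / 2, ((κ : F)⁻¹ - 1) / 2, 0, 0⟩ : Qt 1 β) * l,
    ha.fix_mul (fun γ hγ => ?_) hl, h.toBasic, (h.trip.perp_iff _).2 ⟨_, rfl⟩, ?_⟩
  · simp [qemb, (ha.semi γ hγ).add, (ha.semi γ hγ).smul, ha.fix_one γ hγ, hi γ hγ, h1 γ hγ,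
      map_ofNat]
  · rw [h.toBasic.norm_mul_l, h.norm_l]
    simp only [nrd, Units.val_one]
    field_simp
    ring

theorem exists_split6 (ha : Fx Γ (A : F)) (hb : Fx Γ (B : F)) (hc : Fx Γ (C : F))
    (hw : ∀ w, ¬ RlG Γ w) : ∃ f : J1 F ≃ₗ[F] Alb A B C, Sim6 id false 1 1 1 (pr6 f f) ∧
      ∀ γ ∈ Γ, (∀ x, jA γ (f x) = f (jA γ x)) ∧ ∀ e x, ph6 γ e (f x) = f (ph6 γ e x) := by
  obtain ⟨β, κ, i, j, l, -, -, h1, h2, h3, h4⟩ := exists_split ha hb hc fun w h => (hw w h).elim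
  have h5 := oact_jO ha hb hc
  obtain ⟨l, h6, h7⟩ := exists_one h5 h4 h1 h3
  obtain ⟨j, h8, h9⟩ := exists_one h5 (triple_swap h7) h1 h2
  obtain ⟨f, k1, k2, -⟩ := exists_emb h9.trip
  have k3 : ∀ γ ∈ Γ, ∀ x, jO γ (f x) = f (jO γ x) := fun γ hγ x => by
    rw [k1, k1]
    exact h5.map_emb h1 h6 h8 hγ x
  exact ⟨mapE f, sim6_pr6 (fun x => by rw [cub_mapE k2, one_mul])
    (fun x => by rw [cub_mapE k2, one_mul]) (fun x y => by rw [tf_mapE k2, one_mul])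
    ⟨one_ne_zero, one_ne_zero, one_ne_zero⟩, fun γ hγ =>
    ⟨fun x => by simp only [mapE_apply, omapA, jA, k3 γ hγ],
      fun e x => by simp only [mapE_apply, omapA, ph6, k3 γ hγ, map_smul]⟩⟩

end spl

/-- The inner elements are those which fix `q`. -/
structure Base {F : Type} [Field F] [CharZero F] (Γ : Subgroup (Gl F)) (q : F)
    (Φ : Subgroup (Perm (W1 F))) : Prop where
  dat : Dat6 Γ Φ
  inn : ∀ φ ∈ Φ, ∀ γ : Gl F, Semi γ φ → ((∀ x, (φ (x, 0)).2 = 0) ↔ γ q = q)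

variable {F : Type} [Field F] [NumberField F] {Γ Γ₀ Γ₁ Δ : Subgroup (Gl F)} {q d v : F}
  {Φ : Subgroup (Perm (W1 F))} {r : Gl F}

theorem Base.tr (h : Base Γ q Φ) {ψ : W1 F ≃ W1 F} {ν₁ ν₂ l : F} (hψ : Sim6 id false ν₁ ν₂ l ψ) :
    Base Γ q (tr ψ Φ) := ⟨h.dat.tr hψ, fun φ hφ γ hs => by
  obtain ⟨_, _, _, _, h1⟩ := h.dat.sim_of hφ ((semi_congr hψ.semi).2 hs)
  obtain ⟨_, _, _, h2⟩ := hψ.tr h1
  rw [h2.inner_iff, ← h.inn _ hφ γ h1.semi]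
  exact h1.inner_iff.symm⟩

theorem exists_ei (hEI : EIStmt) (h : Base Γ q Φ) (h0 : Γ₀ ≤ stb Γ q) (h1 : Γ₁ ≤ Γ₀)
    {y : J1 F} (y0 : y ≠ 0) (hy : ∀ φ ∈ Φ, ∀ γ ∈ Γ₁, Semi γ φ → ∃ c : F, φ (y, 0) = c • (y, 0))
    (hr : r ∈ Δ) (h2 : ∀ γ ∈ Γ₁, r * γ * r⁻¹ ∈ Γ₁) (h3 : r ^ 3 ∈ Γ₁)
    (h4 : ∀ γ ∈ Γ₀, γ ∈ Γ₁ ∨ r⁻¹ * γ ∈ Γ₁ ∨ r * γ ∈ Γ₁) (h5 : Δ ≤ Γ₀) (hw : ∀ w, ¬ RlG Δ w) :
    ∃ Φ', Base Γ q Φ' ∧ UIso (Pts (S6 1 1 1) Φ) (Pts (S6 1 1 1) Φ') ∧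
      (∀ φ ∈ Φ', ∀ γ ∈ Γ₁, γ ∈ Δ → Semi γ φ → ∃ l : F, ∀ x, φ (x, 0) = (l • jA γ x, 0)) ∧
      (r ∉ Γ₁ → ∃ e : F, e ≠ 0 ∧ Fx Γ₀ e ∧
        ∀ φ ∈ Φ', Semi r φ → ∃ l : F, ∀ x, φ (x, 0) = (l • ph6 r e x, 0)) := by
  obtain ⟨a, b, c, ha, hb, hc, ψ, ⟨_, _, _, k1⟩, k2, k3⟩ := hEI F Γ₀ Γ₁ (res Φ Γ₀)
    (h.dat.res (h0.trans stb_le)) (fun φ ⟨k1, γ, k2, k3⟩ => (h.inn φ k1 γ k3).2 (h0 k2).2) h1
    ⟨y, y0, fun φ hφ => hy φ hφ.1⟩ r (h5 hr) h2 h3 h4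
  obtain ⟨f, k4, k5⟩ := exists_split6 (ha.mono h5) (hb.mono h5) (hc.mono h5) hw
  have k6 := ((sim6_one.2 k1).comp (sim6_one.2 k4)).cast (ε' := false) (one_mul 1) rfl rfl rfl rfl
  have k7 : ∀ {φ : Perm (W1 F)} {u : Alb a b c → Alb a b c} {u₀ : J1 F → J1 F} {l : F},
      (∀ x, u (f x) = f (u₀ x)) → (∀ x, ((pr6 f f).trans ψ).permCongr φ (ψ (x, 0)) =
        ψ (l • u x, 0)) → ∀ x, φ (x, 0) = (l • u₀ x, 0) := fun m1 m2 x => by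
    have m3 := m2 (f x)
    rw [m1, ← map_smul, ← pr6_inl f f, ← pr6_inl f f] at m3
    simpa using m3
  refine ⟨_, h.tr (ψ := (pr6 f f).trans ψ) k6, (uiso_tr6 (ψ := (pr6 f f).trans ψ) k6 Φ).symm,
    fun φ m1 γ m2 m3 m4 => ?_, fun m1 => ?_⟩
  · have m5 := (semi_congr (ψ := (pr6 f f).trans ψ) k6.semi).2 m4
    exact (k2 _ ⟨m1, γ, h1 m2, m5⟩ γ m2 m5).imp fun _ => k7 (k5 γ m3).1
  · obtain ⟨e, m2, m3, m4⟩ := k3 m1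
    refine ⟨e, m2, m3, fun φ m5 m6 => ?_⟩
    have m7 := (semi_congr (ψ := (pr6 f f).trans ψ) k6.semi).2 m6
    exact (m4 _ ⟨m5, r, h5 hr, m7⟩ m7).imp fun _ => k7 ((k5 r hr).2 e)

end Vale.Agent.P011N.Cl.SET
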